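import Vale.Agent.P280.H475.Main

namespace Vale.Agent.Results.P280.NullPairs

open Vale.Agent.P280.S Vale.Agent.P280.H475

/-- Let `X` be a projectively normal projective manifold of dimension `n`, and suppose that
`h⁰(ℙ¹, f^* T_X(-1)) = r · deg f` for all `f : ℙ¹ → X`, where `r > 0` (if `T_X` is nef this number
is `- K_X · f`; thus for a Fano manifold with nef tangent bundle and `O(1) = O(-m K_X)` the
condition holds with `r = 1 / m`).

(1) Let `(F, θ)` be a null pair of degree `e` with `r e + d₀ ≤ n + 1`. Then there is a vector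
field `D` on `X`, nilpotent on each `H⁰(X, O(d))`, such that the curve `f` of degree `e` with
`f(0) = z`, `f(∞) ∈ F`, `θ(f'(∞)) = 1` through the general point `z` of `X` is the orbit
`c ↦ exp(c D) z`.

(2) If the tangent space at each point `z` of `X` is spanned by velocities at `z` of such curves
through `z` (of null pairs of any degrees whose velocities depend regularly on `z`), then `X` is
homogeneous. -/
theorem result {R : Type} [CommRing R] [Algebra ℂ R] (𝒜 : ℕ → Submodule ℂ R) [GradedAlgebra 𝒜]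
    (hX : IsProjectiveManifold 𝒜) (n : ℕ) (hn : Algebra.trdeg ℂ R = n + 1) (r : ℚ) (hr : 0 < r)
    (hI : HasIndex 𝒜 r) :
    (∀ (J : Set R) (θ : (R →ₐ[ℂ] ℂ) → (R →ₗ[ℂ] ℂ) → ℂ) (e d₀ : ℕ) (g : R), g ≠ 0 →
      IsNullPair 𝒜 J θ e d₀ g → r * e + d₀ ≤ n + 1 →
      ∃ D : Derivation ℂ R R, (∀ d : ℕ, ∀ h ∈ 𝒜 d, D h ∈ 𝒜 d) ∧
        (∀ h, ∃ m : ℕ, (⇑D)^[m] h = 0) ∧
        ∃ g' : R, g' ≠ 0 ∧ ∀ z : R →ₐ[ℂ] ℂ, z g' ≠ 0 →
          ∃ φ, IsArc 𝒜 J θ e z φ ∧ IsOrbit D z φ) ∧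
    ((∀ z : R →ₐ[ℂ] ℂ, ¬ IsVertex 𝒜 z → ∀ v : R →ₗ[ℂ] ℂ, IsTangent z v →
      ∃ c : ℂ, ∃ w ∈ Submodule.span ℂ {w : R →ₗ[ℂ] ℂ | IsArcVelocity 𝒜 r (n + 1) z w},
        ∀ d : ℕ, ∀ h ∈ 𝒜 d, v h = w h + c * (d * z h)) →
      IsHomogeneousManifold 𝒜 ∧ IsTransitive 𝒜) := by
  have hN : ((n + 1 : ℕ) : Cardinal) ≤ Algebra.trdeg ℂ R := by
    rw [hn]
    push_cast
    exact le_rfl
  refine ⟨fun J θ e d₀ g hg hP hc => ?_, fun h => homogeneous_of_velocities hX hr hI hN h⟩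
  obtain ⟨D, hD1, hD2, g', hg', h1⟩ := null_pair_field hX hr hI hN hg hP (by
    push_cast
    exact hc)
  refine ⟨D, hD1, hD2, g', hg', fun z hz => ?_⟩
  obtain ⟨h2, h3⟩ := h1 z hz
  obtain ⟨φ, hφ, -⟩ := hP.unique z h2
  exact ⟨φ, hφ, (h3 φ hφ).1⟩

end Vale.Agent.Results.P280.NullPairs
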