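import Vale.Agent.P280.H226.EqFin

namespace Vale.Agent.Results.P280.TorusEquivalences

open Vale.Agent.P280.S Vale.Agent.P280.H226

/-- Characterizations of homogeneous manifolds. Let `X` be a projectively normal projective
manifold. Equivalent are: (a) `X` is homogeneous; (b) `X` is homogeneous and its automorphisms act
transitively; (c) `T_X` is nef and some torus acts on `X` with isolated fixed points; (d) `T_X` is
nef and some one-dimensional torus acts on `X` with isolated fixed points; (e) `T_X` is nef and some
vector field on `X` has only nondegenerate zeros; (f) `T_X` is nef and some automorphism of `X` has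
only nondegenerate periodic points. -/
theorem result {R : Type} [CommRing R] [Algebra ℂ R] (𝒜 : ℕ → Submodule ℂ R) [GradedAlgebra 𝒜]
    (hX : IsProjectiveManifold 𝒜) :
    List.TFAE [IsHomogeneousManifold 𝒜,
      IsHomogeneousManifold 𝒜 ∧ IsTransitive 𝒜,
      NefOnRationalCurves 𝒜 ∧ ∃ r, HasIsolatedTorus 𝒜 r,
      NefOnRationalCurves 𝒜 ∧ HasIsolatedTorus 𝒜 1,
      NefOnRationalCurves 𝒜 ∧ HasNondegenerateField 𝒜,
      NefOnRationalCurves 𝒜 ∧ HasNondegenerateAutomorphism 𝒜] :=
  Eq.equivalences hX

end Vale.Agent.Results.P280.TorusEquivalences
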