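import Vale.Agent.P280.H641.Last

namespace Vale.Agent.Results.P280.TorusIsolated

open Vale.Agent.P280.T Vale.Agent.P280.H127

/-- The Campana-Peternell conjecture for projective manifolds on which a torus acts with isolated
fixed points. `X` is a projective manifold with nef tangent bundle and with the action of a torus
`T` of any dimension, such that the fixed points of `T` are isolated (the weight zero is no tangent
weight at any of them). Then `X` is homogeneous; moreover every tangent vector, of weight `χ`, at a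
fixed point of `T` is the value of a global vector field of weight `χ`. -/
theorem result {r : ℕ} {R : Type} [CommRing R] [Algebra ℂ R]
    (𝒜 : ℕ × (Fin r → ℤ) → Submodule ℂ R) [GradedAlgebra 𝒜] (hX : IsTorusManifold 𝒜)
    (hN : NefOnRationalCurves 𝒜)
    (hiso : ∀ x ν, ¬ IsVertex 𝒜 x → IsFixed 𝒜 x ν → ¬ TangentWeight 𝒜 x ν 0) :
    (IsHomogeneousManifold 𝒜 ∧ IsTransitive 𝒜) ∧
    ∀ (x : R →ₐ[ℂ] ℂ) (ν χ : Fin r → ℤ), ¬ IsVertex 𝒜 x → IsFixed 𝒜 x ν →
      TangentWeight 𝒜 x ν χ → ∀ v : R →ₗ[ℂ] ℂ, IsTangent x v → HasWeight 𝒜 ν χ v →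
        ∃ D : Derivation ℂ R R, (∀ d m, ∀ h ∈ 𝒜 (d, m), D h ∈ 𝒜 (d, m - χ)) ∧
          ∀ h : R, x (D h) = v h :=
  Vale.Agent.P280.H641.t7 hX hN hiso

end Vale.Agent.Results.P280.TorusIsolated
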